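import Vale.Agent.P146.R3.H316.Order

/-!
# P146: the slope of the order parameter at the origin governs the large deviations, the growth of
the Hermite levels and of the chaos function
-/

open MeasureTheory ProbabilityTheory Filter Topology

namespace Vale.Agent.P146.R3.P316

open Vale.Agent Vale.Agent.P146 Vale.Agent.P146.R3 Vale.Agent.P146.R3.H952 Vale.Agent.P157.Par

/-- `a = (9 β³ / (640 L))^(1/3)` -/
lemma slope_const {β L : ℝ} (hβ : 0 < β) (hL : 0 < L) : ∃ a : ℝ, 0 < a ∧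
    a = (9 * β ^ 3 / (640 * L)) ^ (1 / 3 : ℝ) ∧ L = 9 * β ^ 3 / (640 * a ^ 3) ∧
    (80 * L / 9) ^ (1 / 3 : ℝ) = β / (2 * a) := by
  obtain ⟨a, ha⟩ : ∃ a, a = (9 * β ^ 3 / (640 * L)) ^ (1 / 3 : ℝ) := ⟨_, rfl⟩
  have ha0 : 0 < a := by rw [ha]; positivity
  have ha3 : a ^ 3 = 9 * β ^ 3 / (640 * L) := by
    rw [ha, ← Real.rpow_natCast (_ ^ (1 / 3 : ℝ)) 3, ← Real.rpow_mul (by positivity)]
    norm_num
  refine ⟨a, ha0, ha, ?_, ?_⟩
  · rw [ha3]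
    have := hL.ne'
    have := hβ.ne'
    field_simp
  · have e : 80 * L / 9 = (β / (2 * a)) ^ 3 := by
      rw [div_pow, mul_pow, ha3]
      have := hL.ne'
      have := hβ.ne'
      field_simp
      ring
    have h0 : 0 ≤ β / (2 * a) := by positivity
    rw [e, ← Real.rpow_natCast (β / (2 * a)) 3, ← Real.rpow_mul h0]
    norm_num

/-- **The order parameter and its slope at the origin.** -/
theorem order2 : ∃ a : ℝ → ℝ, Tendsto a (𝓝[>] 1) (𝓝 2) ∧ ∀ β : ℝ, 1 < β → 0 < a β ∧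
    ∃ (p : ℝ) (x : ℝ → ℝ), MinProf β x ∧
      Tendsto (fun n : ℕ => (∫ g, freeEnergy n β g ∂(disorder n)) / n) atTop (𝓝 p) ∧
      IsGLB {v : ℝ | ∃ (K : ℕ) (m q : ℕ → ℝ), OrdPar K m q ∧ v = Real.log 2 + parisiSK β K m q}
        p ∧
      Monotone x ∧ (∀ u, x u ∈ Set.Icc (0 : ℝ) 1) ∧
      (∀ ε : ℝ, 0 < ε → ∃ δ : ℝ, 0 < δ ∧ ∀ (K : ℕ) (m q : ℕ → ℝ), OrdPar K m q →
        Real.log 2 + parisiSK β K m q ≤ p + δ → ∀ y ∈ Set.Icc (0 : ℝ) 1,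
          |(∫ u in y..1, dfn K m q u) - ∫ u in y..1, x u| ≤ ε) ∧
      β * (∫ u in (0 : ℝ)..1, x u) = 1 ∧
      Tendsto (fun y => x y / y) (𝓝[>] 0) (𝓝 (a β)) ∧
      (∀ ε : ℝ, 0 < ε → ∃ δ : ℝ, 0 < δ ∧ ∀ᶠ n : ℕ in atTop,
        ∀ s : ℝ, (n : ℝ) ^ (-(1 / 36) : ℝ) ≤ s → s ≤ δ →
          |Real.log (∫ g, Real.exp (s * (freeEnergy n β g - n * p)) ∂(disorder n)) -
            9 * β ^ 3 / (640 * a β ^ 3) * n * s ^ 6| ≤ ε * n * s ^ 6) ∧
      Tendsto (fun k : ℕ => mom β x k ^ 2 / ((k : ℝ) + 1)) atTop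
        (𝓝 (Real.pi / (2 * a β * β))) ∧
      Tendsto (fun t : ℝ => (1 - t) * covLim β x t) (𝓝[<] 1)
        (𝓝 (Real.pi * β / (4 * a β))) := by
  obtain ⟨L, hL, h⟩ := order
  refine ⟨fun β => (9 * β ^ 3 / (640 * L β)) ^ (1 / 3 : ℝ), ?_, fun β hβ => ?_⟩
  · have h1 : Tendsto (fun β : ℝ => 9 * β ^ 3 / (640 * L β)) (𝓝[>] 1)
        (𝓝 (9 * 1 ^ 3 / (640 * (9 / 5120)))) := by
      have h2 : Tendsto (fun β : ℝ => 9 * β ^ 3) (𝓝[>] 1) (𝓝 (9 * 1 ^ 3)) :=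
        (Continuous.tendsto (by fun_prop) 1).mono_left nhdsWithin_le_nhds
      exact h2.div (hL.const_mul 640) (by norm_num)
    have h3 : Tendsto (fun β : ℝ => (9 * β ^ 3 / (640 * L β)) ^ (1 / 3 : ℝ)) (𝓝[>] 1)
        (𝓝 ((9 * 1 ^ 3 / (640 * (9 / 5120))) ^ (1 / 3 : ℝ))) :=
      h1.rpow_const (Or.inr (by norm_num))
    have e : ((9 * 1 ^ 3 / (640 * (9 / 5120)) : ℝ)) ^ (1 / 3 : ℝ) = 2 := by
      have e1 : (9 * 1 ^ 3 / (640 * (9 / 5120)) : ℝ) = (2 : ℝ) ^ (3 : ℕ) := by norm_num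
      rw [e1, ← Real.rpow_natCast (2 : ℝ) 3, ← Real.rpow_mul (by norm_num)]
      norm_num
    rw [e] at h3
    exact h3
  · have hβ0 : 0 < β := by linarith
    obtain ⟨hL0, p, x, hx, h1, h2, h3, h4, h5, h6, h7, h8, h9, h10⟩ := h β hβ
    obtain ⟨a, ha0, ha, haL, hac⟩ := slope_const hβ0 hL0
    simp only
    rw [← ha] at h8 ⊢
    refine ⟨ha0, p, x, hx, h1, h3, h4, h5, h6, h7, h8, ?_, ?_, ?_⟩
    · rw [← haL]
      exact h2
    · rw [hac] at h9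
      have e : Real.pi / β ^ 2 * (β / (2 * a)) = Real.pi / (2 * a * β) := by
        have := hβ0.ne'
        field_simp
      rwa [e] at h9
    · rw [hac] at h10
      have e : Real.pi / 2 * (β / (2 * a)) = Real.pi * β / (4 * a) := by
        field_simp
        ring
      rwa [e] at h10

end Vale.Agent.P146.R3.P316
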