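import Vale.Agent.P146.R3.H316.Par2
import Vale.Agent.P146.Bdl.B9

/-!
# P146, R10e (L4): near minimisers of the Parisi functional whose profile has the contact law
-/

open MeasureTheory Filter Topology Set

namespace Vale.Agent.P146.R3.P316

open Vale.Agent Vale.Agent.P146.R3 Vale.Agent.P146.R3.H952 Vale.Agent.P157.Par
open Vale.Agent.P146.Gap Vale.Agent.P146.Sh

theorem l4 {b : ℝ} (hb : 1 < b) : ∃ C : ℝ, 1 ≤ C ∧ ∀ η : ℝ, 0 < η → η ≤ 1 →
    ∃ (K : ℕ) (m q : ℕ → ℝ), Exponents K m ∧ Path K q ∧ q 0 = 0 ∧ q K ≤ 1 ∧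
      Sk.PSK b K m q ≤ P0 b + η ∧ ∀ u : ℝ, 0 ≤ u → u ≤ 1 →
        1 - C * u ^ 2 - η ≤ b * P166.F.Lam K m q u ∧ b * P166.F.Lam K m q u ≤ 1 + η := by
  have hb0 : 0 < b := by linarith
  obtain ⟨L, -, h⟩ := uni
  obtain ⟨hL, p, -, -, -, hu⟩ := h b hb
  obtain ⟨x, hx⟩ := exists_prof (β := b)
  obtain ⟨⟨C', y₀, hy₀, h1⟩, -, -⟩ := hu x hx
  obtain ⟨e1, e2, e3⟩ := int_eq_one hb hx
  obtain ⟨k, hk⟩ : ∃ k, k = (9 * b ^ 6 / (80 * L b)) ^ (1 / 3 : ℝ) / 4 := ⟨_, rfl⟩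
  have hk0 : 0 < k := by rw [hk]; positivity
  rw [← hk] at h1
  have hp := prof_prim hx.1 hx.2.1
  -- the profile of `x` is at least `1 - C u²`
  have hC : ∃ C : ℝ, 1 ≤ C ∧ ∀ u : ℝ, 0 ≤ u → u ≤ 1 →
      1 - C * u ^ 2 ≤ b * (∫ v in u..1, x v) := by
    obtain ⟨z, hz⟩ : ∃ z, z = min y₀ 1 := ⟨_, rfl⟩
    have hz0 : 0 < z := by rw [hz]; positivity
    refine ⟨1 + k + |C'| + 1 / z ^ 2, ?_, fun u hu0 hu1 => ?_⟩
    · have := abs_nonneg C'
      have h2 : 0 ≤ 1 / z ^ 2 := by positivity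
      linarith
    · rcases le_total u z with hc | hc
      · have h2 := (abs_le.1 (h1 u hu0 (hc.trans (by rw [hz]; exact min_le_left _ _)))).2
        rw [e2 u ⟨hu0, hu1⟩] at h2
        have h3 : u ^ (5 / 2 : ℝ) ≤ u ^ 2 := by
          have h4 : u ^ (5 / 2 : ℝ) ≤ u ^ (2 : ℝ) :=
            Real.rpow_le_rpow_of_exponent_ge' hu0 hu1 (by norm_num) (by norm_num)
          rwa [Real.rpow_two] at h4
        have h5 : C' * u ^ (5 / 2 : ℝ) ≤ |C'| * u ^ 2 := by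
          refine (mul_le_mul_of_nonneg_right (le_abs_self _) (by positivity)).trans ?_
          exact mul_le_mul_of_nonneg_left h3 (abs_nonneg _)
        have h6 : 0 ≤ 1 / z ^ 2 * u ^ 2 := by positivity
        nlinarith [sq_nonneg u]
      · have h2 : 0 ≤ b * ∫ v in u..1, x v := mul_nonneg hb0.le (hp.nonneg u ⟨hu0, hu1⟩)
        have h3 : 1 ≤ 1 / z ^ 2 * u ^ 2 := by
          rw [one_div, inv_mul_eq_div, le_div_iff₀ (by positivity), one_mul]
          exact pow_le_pow_left₀ hz0.le hc 2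
        have h4 : 0 ≤ (1 + k + |C'|) * u ^ 2 := by positivity
        nlinarith
  obtain ⟨C, hC1, hCx⟩ := hC
  refine ⟨C, hC1, fun η hη hη1 => ?_⟩
  obtain ⟨δ, hδ, hnear⟩ := par_near hb hx (ε := η / b) (by positivity)
  obtain ⟨v, ⟨K, m, q, hm, hq, hq0, hq1, rfl⟩, -, hv⟩ :=
    (par_glb hb).exists_between (lt_add_of_pos_right (P0 b) (lt_min hδ hη))
  refine ⟨K, m, q, hm, hq, hq0, hq1, ?_, fun u hu0 hu1 => ?_⟩
  · have h2 : Sk.PSK b K m q = SKpar b K m q := rfl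
    rw [h2]
    have := min_le_right δ η
    linarith
  · have h2 := hnear K m q hm hq hq0 hq1 (by have := min_le_left δ η; linarith) u ⟨hu0, hu1⟩
    have h3 : ∫ v in u..1, xs K m q v = P166.F.Lam K m q u := by
      have h4 := prim_xs hm hq hq1 hu1
      unfold prim lam at h4
      unfold P166.F.Lam
      exact h4
    rw [h3] at h2
    have h4 := abs_le.1 h2
    have h5 : b * (η / b) = η := by field_simp
    have h6 : b * (∫ v in u..1, x v) ≤ 1 := by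
      have h7 := hp.anti 0 ⟨le_rfl, zero_le_one⟩ u ⟨hu0, hu1⟩ hu0
      unfold prim at h7
      have h8 := mul_le_mul_of_nonneg_left h7 hb0.le
      linarith
    have h7 := hCx u hu0 hu1
    have h8 := mul_le_mul_of_nonneg_left h4.1 hb0.le
    have h9 := mul_le_mul_of_nonneg_left h4.2 hb0.le
    rw [mul_neg, mul_sub, h5] at h8
    rw [mul_sub, h5] at h9
    constructor <;> linarith

end Vale.Agent.P146.R3.P316
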