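import Vale.Agent.P146.R3.H316.Par2
import Vale.Agent.P146.Bdl.B9

/-!
# P146, R10e: near minimisers of the Parisi functional, both bounds of the contact law
-/

open MeasureTheory Filter Topology Set

namespace Vale.Agent.P146.R3.P316

open Vale.Agent Vale.Agent.P146.R3 Vale.Agent.P146.R3.H952 Vale.Agent.P157.Par
open Vale.Agent.P146.Gap Vale.Agent.P146.Sh

/-- both bounds of the contact law for the minimiser -/
lemma contact2 {b : ℝ} (hb : 1 < b) {x : ℝ → ℝ} (hx : MinProf b x) : ∃ C : ℝ, 1 ≤ C ∧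
    ∀ u : ℝ, 0 ≤ u → u ≤ 1 → 1 - C * u ^ 2 ≤ b * (∫ v in u..1, x v) ∧
      b * (∫ v in u..1, x v) ≤ 1 - u ^ 2 / C := by
  have hb0 : 0 < b := by linarith
  obtain ⟨L, -, h⟩ := uni
  obtain ⟨hL, p, -, -, -, hu⟩ := h b hb
  obtain ⟨⟨C', y₀, hy₀, h1⟩, -, -⟩ := hu x hx
  obtain ⟨e1, e2, e3⟩ := int_eq_one hb hx
  obtain ⟨k, hk⟩ : ∃ k, k = (9 * b ^ 6 / (80 * L b)) ^ (1 / 3 : ℝ) / 4 := ⟨_, rfl⟩
  have hk0 : 0 < k := by rw [hk]; positivity
  rw [← hk] at h1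
  have hp := prof_prim hx.1 hx.2.1
  obtain ⟨l, hl⟩ : ∃ l : ℝ → ℝ, l = fun u => b * (∫ v in u..1, x v) := ⟨_, rfl⟩
  have hl' : ∀ u, b * (∫ v in u..1, x v) = l u := fun u => by rw [hl]
  have hanti : ∀ u v : ℝ, 0 ≤ u → u ≤ v → v ≤ 1 → l v ≤ l u := by
    intro u v hu0 huv hv
    rw [← hl' u, ← hl' v]
    refine mul_le_mul_of_nonneg_left ?_ hb0.le
    exact hp.anti u ⟨hu0, huv.trans hv⟩ v ⟨hu0.trans huv, hv⟩ huv
  have hnn : ∀ u : ℝ, 0 ≤ u → u ≤ 1 → 0 ≤ l u := by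
    intro u hu0 hu1
    rw [← hl' u]
    exact mul_nonneg hb0.le (hp.nonneg u ⟨hu0, hu1⟩)
  have h1' : ∀ y, 0 ≤ y → y ≤ y₀ → y ≤ 1 → |1 - l y - k * y ^ 2| ≤ C' * y ^ (5 / 2 : ℝ) := by
    intro y hy0 hy1 hy2
    have := h1 y hy0 hy1
    rwa [e2 y ⟨hy0, hy2⟩, hl'] at this
  -- the threshold
  obtain ⟨z, hz⟩ : ∃ z, z = min (min y₀ 1) ((k / (2 * (1 + |C'|))) ^ 2) := ⟨_, rfl⟩
  have hz0 : 0 < z := by rw [hz]; positivity
  have hzy : z ≤ y₀ := by rw [hz]; exact (min_le_left _ _).trans (min_le_left _ _)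
  have hz1 : z ≤ 1 := by rw [hz]; exact (min_le_left _ _).trans (min_le_right _ _)
  have hzk : z ≤ (k / (2 * (1 + |C'|))) ^ 2 := by rw [hz]; exact min_le_right _ _
  have hC'0 := abs_nonneg C'
  -- up to `z`
  have hA : ∀ u : ℝ, 0 ≤ u → u ≤ z → 1 - (3 / 2 * k) * u ^ 2 ≤ l u ∧ l u ≤ 1 - k / 2 * u ^ 2 := by
    intro u hu0 hu1
    have h2 := h1' u hu0 (hu1.trans hzy) (hu1.trans hz1)
    have h3 : u ^ (5 / 2 : ℝ) = u ^ 2 * √u := by
      rw [show (5 / 2 : ℝ) = 2 + 1 / 2 by norm_num, Real.rpow_add_of_nonneg hu0 (by norm_num)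
        (by norm_num), Real.rpow_two, Real.sqrt_eq_rpow]
    have h4 : √u ≤ k / (2 * (1 + |C'|)) := by
      rw [← Real.sqrt_sq (show 0 ≤ k / (2 * (1 + |C'|)) by positivity)]
      exact Real.sqrt_le_sqrt (hu1.trans hzk)
    have h5 : C' * u ^ (5 / 2 : ℝ) ≤ k / 2 * u ^ 2 := by
      rw [h3]
      have h6 : C' ≤ 1 + |C'| := by linarith [le_abs_self C']
      calc C' * (u ^ 2 * √u) ≤ (1 + |C'|) * (u ^ 2 * √u) :=
            mul_le_mul_of_nonneg_right h6 (by positivity)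
        _ ≤ (1 + |C'|) * (u ^ 2 * (k / (2 * (1 + |C'|)))) := by gcongr
        _ = k / 2 * u ^ 2 := by field_simp
    have h7 := abs_le.1 h2
    constructor <;> linarith [h7.1, h7.2]
  obtain ⟨c, hc⟩ : ∃ c, c = k / 2 * z ^ 2 := ⟨_, rfl⟩
  have hc0 : 0 < c := by rw [hc]; positivity
  refine ⟨1 + 3 / 2 * k + 1 / z ^ 2 + 2 / k + 1 / c, ?_, fun u hu0 hu1 => ?_⟩
  · have : 0 ≤ 3 / 2 * k + 1 / z ^ 2 + 2 / k + 1 / c := by positivity
    linarith
  rw [hl']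
  have hpos : 0 < 1 + 3 / 2 * k + 1 / z ^ 2 + 2 / k + 1 / c := by positivity
  rcases le_total u z with hcz | hcz
  · obtain ⟨a1, a2⟩ := hA u hu0 hcz
    constructor
    · have h6 : 3 / 2 * k * u ^ 2 ≤ (1 + 3 / 2 * k + 1 / z ^ 2 + 2 / k + 1 / c) * u ^ 2 := by
        refine mul_le_mul_of_nonneg_right ?_ (sq_nonneg u)
        have : 0 ≤ 1 / z ^ 2 + 2 / k + 1 / c := by positivity
        linarith
      linarith
    · have h6 : u ^ 2 / (1 + 3 / 2 * k + 1 / z ^ 2 + 2 / k + 1 / c) ≤ u ^ 2 / (2 / k) := by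
        refine div_le_div_of_nonneg_left (sq_nonneg u) (by positivity) ?_
        have : 0 ≤ 1 + 3 / 2 * k + 1 / z ^ 2 + 1 / c := by positivity
        linarith
      have h7 : u ^ 2 / (2 / k) = k / 2 * u ^ 2 := by field_simp
      linarith
  · have a1 := hnn u hu0 hu1
    have a2 : l u ≤ 1 - c := by
      have h2 := hanti z u hz0.le hcz hu1
      have h3 := (hA z hz0.le le_rfl).2
      rw [hc]
      linarith
    have hsq : z ^ 2 ≤ u ^ 2 := pow_le_pow_left₀ hz0.le hcz 2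
    have hsq1 : u ^ 2 ≤ 1 := pow_le_one₀ hu0 hu1
    constructor
    · have h3 : 1 ≤ 1 / z ^ 2 * u ^ 2 := by
        rw [one_div, inv_mul_eq_div, le_div_iff₀ (by positivity), one_mul]
        exact hsq
      have h6 : 1 / z ^ 2 * u ^ 2 ≤ (1 + 3 / 2 * k + 1 / z ^ 2 + 2 / k + 1 / c) * u ^ 2 := by
        refine mul_le_mul_of_nonneg_right ?_ (sq_nonneg u)
        have : 0 ≤ 1 + 3 / 2 * k + 2 / k + 1 / c := by positivity
        linarith
      linarith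
    · have h6 : u ^ 2 / (1 + 3 / 2 * k + 1 / z ^ 2 + 2 / k + 1 / c) ≤ u ^ 2 / (1 / c) := by
        refine div_le_div_of_nonneg_left (sq_nonneg u) (by positivity) ?_
        have : 0 ≤ 1 + 3 / 2 * k + 1 / z ^ 2 + 2 / k := by positivity
        linarith
      have h7 : u ^ 2 / (1 / c) = c * u ^ 2 := by field_simp
      have h8 : c * u ^ 2 ≤ c * 1 := mul_le_mul_of_nonneg_left hsq1 hc0.le
      linarith

/-- **Near minimisers of the Parisi functional, both bounds of the contact law.** -/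
theorem l4_up {b : ℝ} (hb : 1 < b) : ∃ C : ℝ, 1 ≤ C ∧ ∀ η : ℝ, 0 < η → η ≤ 1 →
    ∃ (K : ℕ) (m q : ℕ → ℝ), Exponents K m ∧ Path K q ∧ q 0 = 0 ∧ q K ≤ 1 ∧
      Sk.PSK b K m q ≤ P0 b + η ∧ ∀ u : ℝ, 0 ≤ u → u ≤ 1 →
        1 - C * u ^ 2 - η ≤ b * P166.F.Lam K m q u ∧
          b * P166.F.Lam K m q u ≤ 1 - u ^ 2 / C + η := by
  have hb0 : 0 < b := by linarith
  obtain ⟨x, hx⟩ := exists_prof (β := b)
  obtain ⟨C, hC1, hCx⟩ := contact2 hb hx
  refine ⟨C, hC1, fun η hη hη1 => ?_⟩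
  obtain ⟨δ, hδ, hnear⟩ := par_near hb hx (ε := η / b) (by positivity)
  obtain ⟨v, ⟨K, m, q, hm, hq, hq0, hq1, rfl⟩, -, hv⟩ :=
    (par_glb hb).exists_between (lt_add_of_pos_right (P0 b) (lt_min hδ hη))
  refine ⟨K, m, q, hm, hq, hq0, hq1, ?_, fun u hu0 hu1 => ?_⟩
  · have h2 : Sk.PSK b K m q = SKpar b K m q := rfl
    rw [h2]
    have := min_le_right δ η
    linarith
  · have h2 := hnear K m q hm hq hq0 hq1 (by have := min_le_left δ η; linarith) u ⟨hu0, hu1⟩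
    have h3 : ∫ v in u..1, xs K m q v = P166.F.Lam K m q u := by
      have h4 := prim_xs hm hq hq1 hu1
      unfold prim lam at h4
      unfold P166.F.Lam
      exact h4
    rw [h3] at h2
    have h4 := abs_le.1 h2
    have h5 : b * (η / b) = η := by field_simp
    obtain ⟨h6, h7⟩ := hCx u hu0 hu1
    have h8 := mul_le_mul_of_nonneg_left h4.1 hb0.le
    have h9 := mul_le_mul_of_nonneg_left h4.2 hb0.le
    rw [mul_neg, mul_sub, h5] at h8
    rw [mul_sub, h5] at h9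
    constructor <;> linarith

end Vale.Agent.P146.R3.P316
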