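import Vale.Agent.P146.R3.H316.Par2

/-!
# P146: paths which do not start at zero
-/

open MeasureTheory ProbabilityTheory Filter Topology Set

namespace Vale.Agent.P146.R3.P316

open Vale.Agent Vale.Agent.P146.R3 Vale.Agent.P146.R3.H952 Vale.Agent.P157.Par
open Vale.Agent.P146.Gap Vale.Agent.P146.Sh

/-- the exponents `0, η, m 1, m 2, …` -/
noncomputable def mp (η : ℝ) (m : ℕ → ℝ) (l : ℕ) : ℝ :=
  if l = 0 then 0 else if l = 1 then η else m (l - 1)

/-- the path `0, q 0, q 1, …` -/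
noncomputable def qp (q : ℕ → ℝ) (l : ℕ) : ℝ := if l = 0 then 0 else q (l - 1)

@[simp] lemma mp_zero (η : ℝ) (m : ℕ → ℝ) : mp η m 0 = 0 := rfl
@[simp] lemma mp_one (η : ℝ) (m : ℕ → ℝ) : mp η m 1 = η := rfl
@[simp] lemma mp_ss (η : ℝ) (m : ℕ → ℝ) (l : ℕ) : mp η m (l + 2) = m (l + 1) := rfl
@[simp] lemma qp_zero (q : ℕ → ℝ) : qp q 0 = 0 := rfl
@[simp] lemma qp_succ (q : ℕ → ℝ) (l : ℕ) : qp q (l + 1) = q l := rfl

lemma mp_exp {K : ℕ} {m : ℕ → ℝ} (hm : Exponents K m) {η : ℝ} (hη : 0 < η) (hη1 : η < m 1) :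
    Exponents (K + 1) (mp η m) := by
  refine ⟨rfl, ?_, fun l hl => ?_⟩
  · rw [mp_ss]
    exact hm.2.1
  · match l with
    | 0 => simpa using hη
    | 1 => simpa using hη1
    | l + 2 => exact hm.2.2 (l + 1) (by omega)

lemma qp_path {K : ℕ} {q : ℕ → ℝ} (hq : Path K q) : Path (K + 1) (qp q) := by
  refine ⟨le_rfl, fun l hl => ?_⟩
  match l with
  | 0 => simpa using hq.1
  | l + 1 => exact hq.2 l (by omega)

lemma casc_congr {m m' r : ℕ → ℝ} (h : ∀ l, m (l + 1) = m' (l + 1)) :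
    ∀ (K : ℕ) (F : ℝ → ℝ), cascade m r K F = cascade m' r K F := by
  intro K
  induction K with
  | zero => intro F; rfl
  | succ K ih => intro F; rw [cascade_succ_def, cascade_succ_def, ih, h K]

lemma sum_mp {K : ℕ} (m : ℕ → ℝ) (hm0 : m 0 = 0) (η : ℝ) (f : ℕ → ℝ) :
    ∑ l ∈ Finset.range (K + 2), (mp η m (l + 1) - mp η m l) * f l =
      ∑ l ∈ Finset.range (K + 1), (m (l + 1) - m l) * f (l + 1) - η * (f 1 - f 0) := by
  rw [Finset.sum_range_succ', Finset.sum_range_succ', Finset.sum_range_succ'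
    (fun l => (m (l + 1) - m l) * f (l + 1))]
  simp only [mp_ss, mp_one, mp_zero, zero_add, hm0]
  ring

theorem par_mp {b : ℝ} {K : ℕ} {m q : ℕ → ℝ} (hm : Exponents K m) (hq : Path K q)
    (hq1 : q K ≤ 1) {η : ℝ} (hη : 0 < η) (hη1 : η < m 1) :
    SKpar b (K + 1) (mp η m) (qp q) ≤ SKpar b K m q + η * b ^ 2 := by
  have hq01 : q 0 ≤ 1 := (path_le hq (Finset.mem_range.2 (by omega : 0 < K + 1))).trans hq1
  have hmpos : ∀ l ≤ K, 0 < m (l + 1) := by
    intro l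
    induction l with
    | zero => intro _; linarith
    | succ l ih => intro hl; exact (ih (by omega)).trans (hm.2.2 (l + 1) hl)
  obtain ⟨G, hG⟩ : ∃ G, G = cascade m (fun l => b ^ 2 * q l) K
      (fun x => Real.log (Real.cosh x)) := ⟨_, rfl⟩
  have hL : LipschitzWith 1 G := by
    rw [hG]
    refine comp_casc_lip (F := fun x => Real.log (Real.cosh x)) K _ comp_lc fun l h1 h2 => ?_
    obtain ⟨l, rfl⟩ : ∃ j, l = j + 1 := ⟨l - 1, by omega⟩
    exact hmpos l (by omega)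
  have e1 : cascade (mp η m) (fun l => b ^ 2 * qp q l) (K + 1)
      (fun x => Real.log (Real.cosh x)) = gstep η (b ^ 2 * q 0) G := by
    rw [comp_shift, hG]
    simp only [mp_one, qp_succ, qp_zero, mul_zero, sub_zero]
    congr 1
    exact casc_congr (m := fun l => mp η m (l + 1)) (m' := m) (fun l => rfl) K _
  have h1 := comp_mean (g := η) (v := b ^ 2 * q 0) hη (mul_nonneg (sq_nonneg b) hq.1) hL
  have h2 : spinPart (K + 1) (mp η m) (fun l => b ^ 2 * qp q l) ≤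
      spinPart K m (fun l => b ^ 2 * q l) + η * b ^ 2 := by
    unfold spinPart
    rw [e1, ← hG]
    simp only [qp_zero, qp_succ, mul_zero, Real.sqrt_zero, zero_mul, integral_const,
      probReal_univ, one_smul]
    have h3 : η * (b ^ 2 * q 0) ≤ η * b ^ 2 := by
      have := mul_le_mul_of_nonneg_left hq01 (mul_nonneg hη.le (sq_nonneg b))
      linarith
    linarith
  have h4 : ∑ l ∈ Finset.range (K + 1 + 1), (mp η m (l + 1) - mp η m l) * qp q l ^ 2 ≤
      ∑ l ∈ Finset.range (K + 1), (m (l + 1) - m l) * q l ^ 2 := by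
    rw [sum_mp (K := K) m hm.1 η (fun l => qp q l ^ 2)]
    simp only [qp_succ, qp_zero]
    have h6 : 0 ≤ η * (q 0 ^ 2) := by positivity
    linarith
  unfold SKpar
  have h5 : b ^ 2 / 4 * (1 + ∑ l ∈ Finset.range (K + 1 + 1),
      (mp η m (l + 1) - mp η m l) * qp q l ^ 2) ≤ b ^ 2 / 4 *
        (1 + ∑ l ∈ Finset.range (K + 1), (m (l + 1) - m l) * q l ^ 2) :=
    mul_le_mul_of_nonneg_left (by linarith) (by positivity)
  linarith

lemma lam_mp {K : ℕ} {m q : ℕ → ℝ} (hm : Exponents K m) {η : ℝ} (hη : 0 < η)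
    (hq01 : q 0 ≤ 1) {y : ℝ} (hy : 0 ≤ y) :
    |lam (K + 1) (mp η m) (qp q) y - lam K m q y| ≤ η := by
  unfold lam
  rw [sum_mp (K := K) m hm.1 η (fun l => max (qp q l - y) 0)]
  simp only [qp_succ]
  have h0 : max (qp q 0 - y) 0 = 0 := by
    rw [qp_zero, zero_sub]
    exact max_eq_right (by linarith)
  rw [h0]
  have e : 1 - y - (∑ l ∈ Finset.range (K + 1), (m (l + 1) - m l) * max (q l - y) 0 -
      η * (max (q 0 - y) 0 - 0)) - (1 - y -
        ∑ l ∈ Finset.range (K + 1), (m (l + 1) - m l) * max (q l - y) 0) =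
      η * max (q 0 - y) 0 := by ring
  rw [e, abs_of_nonneg (mul_nonneg hη.le (le_max_right _ _))]
  have h2 : max (q 0 - y) 0 ≤ 1 := max_le (by linarith) zero_le_one
  have := mul_le_mul_of_nonneg_left h2 hη.le
  linarith

variable {b : ℝ}

/-- The Parisi value is the infimum over all paths. -/
theorem par_glb_all (hb : 1 < b) : IsGLB {v : ℝ | ∃ (K : ℕ) (m q : ℕ → ℝ), Exponents K m ∧
    Path K q ∧ q K ≤ 1 ∧ v = SKpar b K m q} (P0 b) := by
  have h := par_glb hb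
  refine ⟨?_, fun c hc => h.2 ?_⟩
  · rintro v ⟨K, m, q, hm, hq, hq1, rfl⟩
    refine le_of_forall_pos_le_add fun e he => ?_
    have hm1 : 0 < m 1 := by
      have := hm.2.2 0 (Nat.zero_le _)
      rwa [hm.1] at this
    obtain ⟨η, hη⟩ : ∃ η, η = min (m 1 / 2) (e / b ^ 2) := ⟨_, rfl⟩
    have hη0 : 0 < η := by rw [hη]; positivity
    have hη1 : η < m 1 := by
      have : η ≤ m 1 / 2 := by rw [hη]; exact min_le_left _ _
      linarith
    have hη2 : η * b ^ 2 ≤ e := by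
      have : η ≤ e / b ^ 2 := by rw [hη]; exact min_le_right _ _
      rwa [le_div_iff₀ (by positivity)] at this
    have h1 := par_mp (b := b) hm hq hq1 hη0 hη1
    have h2 : P0 b ≤ SKpar b (K + 1) (mp η m) (qp q) :=
      h.1 ⟨K + 1, mp η m, qp q, mp_exp hm hη0 hη1, qp_path hq, rfl, hq1, rfl⟩
    linarith
  · rintro v ⟨K, m, q, hm, hq, -, hq1, rfl⟩
    exact hc ⟨K, m, q, hm, hq, hq1, rfl⟩

/-- **Near minimisers of the Parisi functional**, all paths. -/
theorem par_near_all (hb : 1 < b) {x : ℝ → ℝ} (hx : MinProf b x) {ε : ℝ} (hε : 0 < ε) :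
    ∃ δ > 0, ∀ (K : ℕ) (m q : ℕ → ℝ), Exponents K m → Path K q → q K ≤ 1 →
      SKpar b K m q ≤ P0 b + δ → ∀ y ∈ Icc (0 : ℝ) 1,
        |(∫ u in y..1, xs K m q u) - ∫ u in y..1, x u| ≤ ε := by
  obtain ⟨δ, hδ, h⟩ := par_near hb hx (half_pos hε)
  refine ⟨δ / 2, half_pos hδ, fun K m q hm hq hq1 hv y hy => ?_⟩
  have hm1 : 0 < m 1 := by
    have := hm.2.2 0 (Nat.zero_le _)
    rwa [hm.1] at this
  obtain ⟨η, hη⟩ : ∃ η, η = min (m 1 / 2) (min (δ / 2 / b ^ 2) (ε / 2)) := ⟨_, rfl⟩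
  have hη0 : 0 < η := by rw [hη]; positivity
  have hη1 : η < m 1 := by
    have : η ≤ m 1 / 2 := by rw [hη]; exact min_le_left _ _
    linarith
  have hη2 : η * b ^ 2 ≤ δ / 2 := by
    have : η ≤ δ / 2 / b ^ 2 := by
      rw [hη]; exact (min_le_right _ _).trans (min_le_left _ _)
    rwa [le_div_iff₀ (by positivity)] at this
  have hη3 : η ≤ ε / 2 := by rw [hη]; exact (min_le_right _ _).trans (min_le_right _ _)
  have h1 := par_mp (b := b) hm hq hq1 hη0 hη1
  have hm' := mp_exp hm hη0 hη1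
  have hq' := qp_path hq
  have h2 := h (K + 1) (mp η m) (qp q) hm' hq' rfl hq1 (by linarith) y hy
  have hq01 : q 0 ≤ 1 := (path_le hq (Finset.mem_range.2 (by omega : 0 < K + 1))).trans hq1
  have h3 := lam_mp hm hη0 hq01 hy.1
  have e1 := prim_xs hm hq hq1 hy.2
  have e2 := prim_xs hm' hq' (show qp q (K + 1) ≤ 1 from hq1) hy.2
  unfold prim at e1 e2
  rw [e2] at h2
  rw [e1]
  have h4 : |lam K m q y - ∫ u in y..1, x u| ≤ |lam K m q y - lam (K + 1) (mp η m) (qp q) y| +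
      |lam (K + 1) (mp η m) (qp q) y - ∫ u in y..1, x u| := abs_sub_le _ _ _
  rw [abs_sub_comm (lam K m q y) (lam (K + 1) (mp η m) (qp q) y)] at h4
  linarith

end Vale.Agent.P146.R3.P316
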