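import Mathlib

/-!
# P146: the slope of the order parameter at the origin
-/

open MeasureTheory Filter Topology Set

namespace Vale.Agent.P146.R3.P316

/-- A nondecreasing function whose primitive is `k y² + O(y^(5/2))` is equivalent to `2 k y`. -/
theorem slope {x : ℝ → ℝ} (hm : Monotone x) {k C y₀ : ℝ} (hy₀ : 0 < y₀)
    (h : ∀ y, 0 ≤ y → y ≤ y₀ → |(∫ u in (0 : ℝ)..y, x u) - k * y ^ 2| ≤ C * y ^ (5 / 2 : ℝ)) :
    Tendsto (fun y => x y / y) (𝓝[>] 0) (𝓝 (2 * k)) := by
  have ii : ∀ a b : ℝ, IntervalIntegrable x volume a b := fun a b => hm.intervalIntegrable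
  have hC : 0 ≤ C := by
    have h0 := (abs_nonneg _).trans (h y₀ hy₀.le le_rfl)
    by_contra hneg
    push Not at hneg
    have : C * y₀ ^ (5 / 2 : ℝ) < 0 := mul_neg_of_neg_of_pos hneg (by positivity)
    linarith
  -- increments
  have hup : ∀ y t : ℝ, 0 < y → 0 < t → (1 + t) * y ≤ y₀ →
      x y / y ≤ k * (2 + t) + 2 * C * (1 + t) ^ (5 / 2 : ℝ) / t * √y := by
    intro y t hy ht hyt
    have h1 : x y * (t * y) ≤ ∫ u in y..(1 + t) * y, x u := by
      have h2 := intervalIntegral.integral_mono_on (f := fun _ => x y)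
        (a := y) (b := (1 + t) * y) (by nlinarith) intervalIntegrable_const (ii _ _)
        fun u hu => hm hu.1
      rw [intervalIntegral.integral_const, smul_eq_mul] at h2
      have e : ((1 + t) * y - y) * x y = x y * (t * y) := by ring
      rwa [e] at h2
    have h3 := intervalIntegral.integral_add_adjacent_intervals (ii 0 y) (ii y ((1 + t) * y))
    have h4 := (abs_le.1 (h ((1 + t) * y) (by positivity) hyt)).2
    have hyy : y ≤ y₀ := by nlinarith
    have h5 := (abs_le.1 (h y hy.le hyy)).1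
    have hr1 : ((1 + t) * y) ^ (5 / 2 : ℝ) = (1 + t) ^ (5 / 2 : ℝ) * (y ^ 2 * √y) := by
      rw [Real.mul_rpow (by positivity) hy.le]
      congr 1
      rw [Real.sqrt_eq_rpow, ← Real.rpow_natCast, ← Real.rpow_add hy]
      norm_num
    have hr2 : y ^ (5 / 2 : ℝ) ≤ (1 + t) ^ (5 / 2 : ℝ) * (y ^ 2 * √y) := by
      rw [← hr1]
      exact Real.rpow_le_rpow hy.le (by nlinarith) (by norm_num)
    rw [hr1] at h4
    obtain ⟨A, hA⟩ : ∃ A, A = (1 + t) ^ (5 / 2 : ℝ) := ⟨_, rfl⟩
    rw [← hA] at h4 hr2 ⊢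
    have h6 : C * y ^ (5 / 2 : ℝ) ≤ C * (A * (y ^ 2 * √y)) := mul_le_mul_of_nonneg_left hr2 hC
    have h7 : x y * (t * y) ≤ k * ((2 * t + t ^ 2) * y ^ 2) + 2 * C * A * (y ^ 2 * √y) := by
      linarith
    have h8 : x y / y ≤ k * (2 + t) + 2 * C * A / t * √y := by
      rw [div_le_iff₀ hy]
      have h9 : x y ≤ (k * ((2 * t + t ^ 2) * y ^ 2) + 2 * C * A * (y ^ 2 * √y)) / (t * y) := by
        rw [le_div_iff₀ (by positivity)]
        exact h7
      refine h9.trans (le_of_eq ?_)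
      field_simp
    exact h8
  have hlo : ∀ y t : ℝ, 0 < y → 0 < t → t < 1 → y ≤ y₀ →
      k * (2 - t) - 2 * C / t * √y ≤ x y / y := by
    intro y t hy ht ht1 hyy
    have h1 : ∫ u in (1 - t) * y..y, x u ≤ x y * (t * y) := by
      have h2 := intervalIntegral.integral_mono_on (g := fun _ => x y)
        (a := (1 - t) * y) (b := y) (by nlinarith) (ii _ _) intervalIntegrable_const
        fun u hu => hm hu.2
      rw [intervalIntegral.integral_const, smul_eq_mul] at h2
      have e : (y - (1 - t) * y) * x y = x y * (t * y) := by ring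
      rwa [e] at h2
    have h3 := intervalIntegral.integral_add_adjacent_intervals (ii 0 ((1 - t) * y))
      (ii ((1 - t) * y) y)
    have h0 : 0 ≤ (1 - t) * y := mul_nonneg (by linarith) hy.le
    have hle : (1 - t) * y ≤ y := by nlinarith
    have h4 := (abs_le.1 (h ((1 - t) * y) h0 (hle.trans hyy))).2
    have h5 := (abs_le.1 (h y hy.le hyy)).1
    have hr : y ^ (5 / 2 : ℝ) = y ^ 2 * √y := by
      rw [Real.sqrt_eq_rpow, ← Real.rpow_natCast, ← Real.rpow_add hy]
      norm_num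
    have hr2 : ((1 - t) * y) ^ (5 / 2 : ℝ) ≤ y ^ 2 * √y := by
      rw [← hr]
      exact Real.rpow_le_rpow h0 hle (by norm_num)
    have h6 : C * ((1 - t) * y) ^ (5 / 2 : ℝ) ≤ C * (y ^ 2 * √y) :=
      mul_le_mul_of_nonneg_left hr2 hC
    rw [hr] at h5
    have h7 : k * ((2 * t - t ^ 2) * y ^ 2) - 2 * C * (y ^ 2 * √y) ≤ x y * (t * y) := by
      linarith
    rw [le_div_iff₀ hy]
    have h9 : (k * ((2 * t - t ^ 2) * y ^ 2) - 2 * C * (y ^ 2 * √y)) / (t * y) ≤ x y := by
      rw [div_le_iff₀ (by positivity)]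
      exact h7
    refine le_trans (le_of_eq ?_) h9
    field_simp
  rw [tendsto_order]
  have hsq : Tendsto (fun y : ℝ => √y) (𝓝[>] 0) (𝓝 0) := by
    have h1 : Tendsto (fun y : ℝ => √y) (𝓝 0) (𝓝 √0) := Real.continuous_sqrt.tendsto 0
    rw [Real.sqrt_zero] at h1
    exact h1.mono_left nhdsWithin_le_nhds
  have hpos : ∀ᶠ y : ℝ in 𝓝[>] 0, 0 < y := eventually_mem_nhdsWithin
  constructor
  · intro a ha
    obtain ⟨e, he⟩ : ∃ e, e = 2 * k - a := ⟨_, rfl⟩
    have he0 : 0 < e := by linarith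
    obtain ⟨t, ht⟩ : ∃ t, t = min (1 / 2) (e / (4 * (|k| + 1))) := ⟨_, rfl⟩
    have ht0 : 0 < t := by rw [ht]; positivity
    have ht1 : t < 1 := by rw [ht]; exact (min_le_left _ _).trans_lt (by norm_num)
    have ht2 : (|k| + 1) * t ≤ e / 4 := by
      have h1 : t ≤ e / (4 * (|k| + 1)) := by rw [ht]; exact min_le_right _ _
      have := mul_le_mul_of_nonneg_left h1 (show 0 ≤ |k| + 1 by positivity)
      have e2 : (|k| + 1) * (e / (4 * (|k| + 1))) = e / 4 := by
        have : (|k| + 1) ≠ 0 := by positivity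
        field_simp
      rwa [e2] at this
    have hlim : Tendsto (fun y : ℝ => k * (2 - t) - 2 * C / t * √y) (𝓝[>] 0)
        (𝓝 (k * (2 - t) - 2 * C / t * 0)) := tendsto_const_nhds.sub (hsq.const_mul _)
    rw [mul_zero, sub_zero] at hlim
    have hgt : a < k * (2 - t) := by
      have h1 : k * t ≤ (|k| + 1) * t := mul_le_mul_of_nonneg_right
        (by linarith [le_abs_self k]) ht0.le
      linarith
    have hle : ∀ᶠ y : ℝ in 𝓝[>] 0, y ≤ y₀ :=
      nhdsWithin_le_nhds (Iic_mem_nhds hy₀)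
    filter_upwards [(tendsto_order.1 hlim).1 a hgt, hpos, hle] with y h1 h2 h3
    exact h1.trans_le (hlo y t h2 ht0 ht1 h3)
  · intro a ha
    obtain ⟨e, he⟩ : ∃ e, e = a - 2 * k := ⟨_, rfl⟩
    have he0 : 0 < e := by linarith
    obtain ⟨t, ht⟩ : ∃ t, t = e / (4 * (|k| + 1)) := ⟨_, rfl⟩
    have ht0 : 0 < t := by rw [ht]; positivity
    have ht2 : (|k| + 1) * t = e / 4 := by
      rw [ht]
      have : (|k| + 1) ≠ 0 := by positivity
      field_simp
    have hlim : Tendsto (fun y : ℝ => k * (2 + t) + 2 * C * (1 + t) ^ (5 / 2 : ℝ) / t * √y)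
        (𝓝[>] 0) (𝓝 (k * (2 + t) + 2 * C * (1 + t) ^ (5 / 2 : ℝ) / t * 0)) :=
      tendsto_const_nhds.add (hsq.const_mul _)
    rw [mul_zero, add_zero] at hlim
    have hlt : k * (2 + t) < a := by
      have h1 : k * t ≤ (|k| + 1) * t := mul_le_mul_of_nonneg_right
        (by linarith [le_abs_self k]) ht0.le
      linarith
    have hle : ∀ᶠ y : ℝ in 𝓝[>] 0, y ≤ y₀ / (1 + t) :=
      nhdsWithin_le_nhds (Iic_mem_nhds (by positivity))
    filter_upwards [(tendsto_order.1 hlim).2 a hlt, hpos, hle] with y h1 h2 h3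
    refine (hup y t h2 ht0 ?_).trans_lt h1
    rw [le_div_iff₀ (by positivity)] at h3
    linarith

end Vale.Agent.P146.R3.P316
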