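import Vale.Agent.P146.R3.OrdDefs
import Vale.Agent.P146.R3.H316.Par3
import Vale.Agent.P146.R3.H316.Slope

/-!
# P146: the order parameter of the SK model and the constant of the exponential moments
-/

open MeasureTheory ProbabilityTheory Filter Topology

namespace Vale.Agent.P146.R3.P316

open Vale.Agent Vale.Agent.P146 Vale.Agent.P146.R3 Vale.Agent.P146.R3.H952 Vale.Agent.P157.Par

lemma mk_eq_mom {β : ℝ} (hβ : 1 < β) {x : ℝ → ℝ} (hx : MinProf β x) (k : ℕ) :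
    mk β x k = mom β x k := by
  obtain ⟨-, h, -⟩ := int_eq_one hβ hx
  unfold mk mom
  congr 1
  refine intervalIntegral.integral_congr fun y hy => ?_
  rw [Set.uIcc_of_le zero_le_one] at hy
  rw [h y hy]

lemma Kinf_eq_covLim {β : ℝ} (hβ : 1 < β) {x : ℝ → ℝ} (hx : MinProf β x) (t : ℝ) :
    Kinf β x t = covLim β x t := by
  unfold Kinf covLim
  simp_rw [mk_eq_mom hβ hx]

/-- **The order parameter.** -/
theorem order : ∃ L : ℝ → ℝ, Tendsto L (𝓝[>] 1) (𝓝 (9 / 5120)) ∧ ∀ β : ℝ, 1 < β → 0 < L β ∧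
    ∃ (p : ℝ) (x : ℝ → ℝ), MinProf β x ∧
      Tendsto (fun n : ℕ => (∫ g, freeEnergy n β g ∂(disorder n)) / n) atTop (𝓝 p) ∧
      (∀ ε : ℝ, 0 < ε → ∃ δ : ℝ, 0 < δ ∧ ∀ᶠ n : ℕ in atTop,
        ∀ s : ℝ, (n : ℝ) ^ (-(1 / 36) : ℝ) ≤ s → s ≤ δ →
          |Real.log (∫ g, Real.exp (s * (freeEnergy n β g - n * p)) ∂(disorder n)) -
            L β * n * s ^ 6| ≤ ε * n * s ^ 6) ∧
      IsGLB {v : ℝ | ∃ (K : ℕ) (m q : ℕ → ℝ), OrdPar K m q ∧ v = Real.log 2 + parisiSK β K m q}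
        p ∧
      Monotone x ∧ (∀ u, x u ∈ Set.Icc (0 : ℝ) 1) ∧
      (∀ ε : ℝ, 0 < ε → ∃ δ : ℝ, 0 < δ ∧ ∀ (K : ℕ) (m q : ℕ → ℝ), OrdPar K m q →
        Real.log 2 + parisiSK β K m q ≤ p + δ → ∀ y ∈ Set.Icc (0 : ℝ) 1,
          |(∫ u in y..1, dfn K m q u) - ∫ u in y..1, x u| ≤ ε) ∧
      β * (∫ u in (0 : ℝ)..1, x u) = 1 ∧
      Tendsto (fun y => x y / y) (𝓝[>] 0) (𝓝 ((9 * β ^ 3 / (640 * L β)) ^ (1 / 3 : ℝ))) ∧
      Tendsto (fun k : ℕ => mom β x k ^ 2 / ((k : ℝ) + 1)) atTop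
        (𝓝 (Real.pi / β ^ 2 * (80 * L β / 9) ^ (1 / 3 : ℝ))) ∧
      Tendsto (fun t : ℝ => (1 - t) * covLim β x t) (𝓝[<] 1)
        (𝓝 (Real.pi / 2 * (80 * L β / 9) ^ (1 / 3 : ℝ))) := by
  obtain ⟨L, hL, h⟩ := uni
  refine ⟨L, hL, fun β hβ => ?_⟩
  have hβ0 : 0 < β := by linarith
  obtain ⟨hL0, p, hp, hglb, hmom, hu⟩ := h β hβ
  obtain ⟨x, hx⟩ := exists_prof (β := β)
  obtain ⟨⟨C, y₀, hy₀, h1⟩, h2, h3⟩ := hu x hx
  obtain ⟨e1, e2, e3⟩ := int_eq_one hβ hx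
  have hP0 : p = Real.log 2 + Sh.P0 β := by
    have h4 := hglb.unique (H501.glb_sk hβ.le)
    linarith
  refine ⟨hL0, p, x, hx, hp, hmom, ?_, hx.1, hx.2.1, fun ε hε => ?_, e1, ?_, ?_, ?_⟩
  · have h5 := par_glb_all hβ
    rw [hP0]
    refine ⟨?_, fun c hc => ?_⟩
    · rintro v ⟨K, m, q, ⟨hm, hq, hq1⟩, rfl⟩
      have h6 := h5.1 ⟨K, m, q, hm, hq, hq1, rfl⟩
      have h7 : Gap.SKpar β K m q = parisiSK β K m q := rfl
      rw [h7] at h6
      linarith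
    · have h6 : c - Real.log 2 ≤ Sh.P0 β := by
        refine h5.2 ?_
        rintro v ⟨K, m, q, hm, hq, hq1, rfl⟩
        have h8 := hc ⟨K, m, q, ⟨hm, hq, hq1⟩, rfl⟩
        have h7 : Gap.SKpar β K m q = parisiSK β K m q := rfl
        rw [h7]
        linarith
      linarith
  · obtain ⟨δ, hδ, h5⟩ := par_near_all hβ hx hε
    refine ⟨δ, hδ, fun K m q ⟨hm, hq, hq1⟩ hv y hy => ?_⟩
    refine h5 K m q hm hq hq1 ?_ y hy
    have h7 : Gap.SKpar β K m q = parisiSK β K m q := rfl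
    rw [h7]
    linarith
  · have h5 : ∀ y, 0 ≤ y → y ≤ min y₀ 1 → |(∫ u in (0 : ℝ)..y, x u) -
        (9 * β ^ 6 / (80 * L β)) ^ (1 / 3 : ℝ) / (4 * β) * y ^ 2| ≤
          C / β * y ^ (5 / 2 : ℝ) := by
      intro y hy hy1
      have h6 := h1 y hy (hy1.trans (min_le_left _ _))
      rw [e2 y ⟨hy, hy1.trans (min_le_right _ _)⟩] at h6
      have h7 := intervalIntegral.integral_add_adjacent_intervals
        (hx.1.intervalIntegrable (a := 0) (b := y) (μ := volume))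
        (hx.1.intervalIntegrable (a := y) (b := 1) (μ := volume))
      have h8 : 1 - β * (∫ u in y..1, x u) -
          (9 * β ^ 6 / (80 * L β)) ^ (1 / 3 : ℝ) / 4 * y ^ 2 =
          β * ((∫ u in (0 : ℝ)..y, x u) -
            (9 * β ^ 6 / (80 * L β)) ^ (1 / 3 : ℝ) / (4 * β) * y ^ 2) := by
        have h9 : (1 : ℝ) = β * ∫ u in (0 : ℝ)..1, x u := e1.symm
        have h10 : β * (∫ u in (0 : ℝ)..1, x u) = β * (∫ u in (0 : ℝ)..y, x u) +
            β * ∫ u in y..1, x u := by rw [← h7]; ring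
        rw [mul_sub]
        have h11 : β * ((9 * β ^ 6 / (80 * L β)) ^ (1 / 3 : ℝ) / (4 * β) * y ^ 2) =
            (9 * β ^ 6 / (80 * L β)) ^ (1 / 3 : ℝ) / 4 * y ^ 2 := by
          field_simp
        rw [h11]
        linarith
      rw [h8, abs_mul, abs_of_pos hβ0] at h6
      have h12 : C / β * y ^ (5 / 2 : ℝ) = (C * y ^ (5 / 2 : ℝ)) / β := by ring
      rw [h12, le_div_iff₀ hβ0]
      linarith
    have h6 := slope hx.1 (lt_min hy₀ one_pos) h5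
    have h7 : 2 * ((9 * β ^ 6 / (80 * L β)) ^ (1 / 3 : ℝ) / (4 * β)) =
        (9 * β ^ 3 / (640 * L β)) ^ (1 / 3 : ℝ) := by
      have h8 : 9 * β ^ 3 / (640 * L β) = (9 * β ^ 6 / (80 * L β)) / (2 * β) ^ 3 := by
        have := hL0.ne'
        field_simp
        ring
      have h9 : ((2 * β) ^ 3) ^ (1 / 3 : ℝ) = 2 * β := by
        rw [← Real.rpow_natCast (2 * β) 3, ← Real.rpow_mul (by positivity)]
        norm_num
      obtain ⟨Q, hQ⟩ : ∃ Q, Q = 9 * β ^ 6 / (80 * L β) := ⟨_, rfl⟩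
      have hQ0 : 0 ≤ Q := by rw [hQ]; positivity
      rw [h8, ← hQ, Real.div_rpow hQ0 (by positivity), h9]
      field_simp
      ring
    rw [h7] at h6
    exact h6
  · simp_rw [← mk_eq_mom hβ hx]
    exact h2
  · simp_rw [← Kinf_eq_covLim hβ hx]
    exact h3

end Vale.Agent.P146.R3.P316
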