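import Vale.Agent.P146.R3.H316.Uni

/-!
# P146: the limit profile and the Parisi functional of the SK model

Near minimisers of the Parisi functional have profiles close to the limit profile; `β ∫₀¹ x = 1`.
-/

open MeasureTheory Filter Topology Set

namespace Vale.Agent.P146.R3.P316

open Vale.Agent Vale.Agent.P146.R3 Vale.Agent.P146.R3.H952 Vale.Agent.P157.Par
open Vale.Agent.P146.Gap Vale.Agent.P146.Sh

variable {b : ℝ}

/-- the dual value of the overlap path of an arbitrary path -/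
theorem dual_val (hb : 0 < b) {K : ℕ} {m q : ℕ → ℝ} (hm : Exponents K m) (hq : Path K q)
    (hq0 : q 0 = 0) : ∃ v : ℝ, IsVal 1 (muS b 0 0) K m (spR K m fun l => b ^ 2 * q l) v ∧
      v ≤ SKpar b K m q - b ^ 2 / 4 * ∑ l ∈ Finset.range (K + 1), (m (l + 1) - m l) *
        (q l - spR K m (fun l => b ^ 2 * q l) l) ^ 2 := by
  obtain ⟨r, hr⟩ : ∃ r : ℕ → ℝ, r = fun l => b ^ 2 * q l := ⟨_, rfl⟩
  have hrp : Path K r := by
    rw [hr]
    exact ⟨mul_nonneg (sq_nonneg b) hq.1,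
      fun l hl => mul_le_mul_of_nonneg_left (hq.2 l hl) (sq_nonneg b)⟩
  have hr0 : r 0 = 0 := by
    rw [hr]
    simp only
    rw [hq0, mul_zero]
  rw [← hr]
  obtain ⟨s, hs⟩ : ∃ s : ℕ → ℝ, s = spR K m r := ⟨_, rfl⟩
  have hs1 : Path K s := by
    rw [hs]
    exact ⟨spR_nonneg hm hrp (Nat.zero_le _), fun l hl => spR_mono hm hrp hl⟩
  have hs0 : s 0 = 0 := by rw [hs]; exact Gap.spR_zero hm hrp hr0
  have hsK : s K < 1 := by rw [hs]; exact spR_lt_one hm hrp le_rfl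
  have hspec := H536.specPart_le hb hm hs1 hsK.le
  rw [← hs]
  obtain ⟨B, hB⟩ : ∃ B, B = SKpar b K m q - b ^ 2 / 4 * ∑ l ∈ Finset.range (K + 1),
      (m (l + 1) - m l) * (q l - s l) ^ 2 := ⟨_, rfl⟩
  rw [← hB]
  have hbd : ∀ x ∈ {x : ℝ | ∃ r' : ℕ → ℝ, Path K r' ∧ x = P166.Jf 1 (muS b 0 0) K m s r'},
      x ≤ B := by
    rintro x ⟨r', hr', rfl⟩
    have ht := tangent_path hm hrp hr'
    rw [← hs] at ht
    unfold P166.Jf
    rw [hB]
    unfold SKpar
    rw [← hr]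
    have e1 : ∑ l ∈ Finset.range (K + 1), (m (l + 1) - m l) * (q l - s l) ^ 2 =
        ∑ l ∈ Finset.range (K + 1), (m (l + 1) - m l) * q l ^ 2 +
        ∑ l ∈ Finset.range (K + 1), (m (l + 1) - m l) * s l ^ 2 -
        2 * ∑ l ∈ Finset.range (K + 1), (m (l + 1) - m l) * (q l * s l) := by
      rw [Finset.mul_sum, ← Finset.sum_add_distrib, ← Finset.sum_sub_distrib]
      exact Finset.sum_congr rfl fun l _ => by ring
    have e2 : ∑ l ∈ Finset.range (K + 1), (m (l + 1) - m l) * s l * (r' l - r l) =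
        ∑ l ∈ Finset.range (K + 1), (m (l + 1) - m l) * r' l * s l -
        b ^ 2 * ∑ l ∈ Finset.range (K + 1), (m (l + 1) - m l) * (q l * s l) := by
      rw [Finset.mul_sum, ← Finset.sum_sub_distrib]
      refine Finset.sum_congr rfl fun l _ => ?_
      rw [hr]
      ring
    rw [e2] at ht
    rw [e1]
    linarith only [ht, hspec]
  have hne : {x : ℝ | ∃ r' : ℕ → ℝ, Path K r' ∧ x = P166.Jf 1 (muS b 0 0) K m s r'}.Nonempty :=
    ⟨_, fun _ => 0, ⟨le_rfl, fun _ _ => le_rfl⟩, rfl⟩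
  exact ⟨_, ⟨hm, hs1, hs0, hsK, isLUB_csSup hne ⟨_, fun x hx => hbd x hx⟩⟩, csSup_le hne hbd⟩

/-- the Parisi functional is at least the Parisi value plus the distance to stationarity -/
theorem stat_dist (hb : 0 < b) (hglb : IsGLB (PV 1 (muS b 0 0)) (P0 b)) {K : ℕ} {m q : ℕ → ℝ}
    (hm : Exponents K m) (hq : Path K q) (hq0 : q 0 = 0) :
    P0 b + b ^ 2 / 4 * ∑ l ∈ Finset.range (K + 1), (m (l + 1) - m l) *
      (q l - spR K m (fun l => b ^ 2 * q l) l) ^ 2 ≤ SKpar b K m q := by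
  obtain ⟨v, ⟨h1, h2, h3, h4, h5⟩, hv⟩ := dual_val hb hm hq hq0
  have h6 : P0 b ≤ v := hglb.1 ⟨K, m, _, h1, h2, h3, h4, h5⟩
  linarith

/-- The Parisi value is the infimum over the paths which start at zero. -/
theorem par_glb (hb : 1 < b) : IsGLB {v : ℝ | ∃ (K : ℕ) (m q : ℕ → ℝ), Exponents K m ∧
    Path K q ∧ q 0 = 0 ∧ q K ≤ 1 ∧ v = SKpar b K m q} (P0 b) := by
  have hb0 : 0 < b := by linarith
  have hglb : IsGLB (PV 1 (muS b 0 0)) (P0 b) := H501.glb_sk hb.le
  refine ⟨?_, fun c hc => ?_⟩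
  · rintro v ⟨K, m, q, hm, hq, hq0, -, rfl⟩
    have h1 := stat_dist hb0 hglb hm hq hq0
    have h2 : 0 ≤ b ^ 2 / 4 * ∑ l ∈ Finset.range (K + 1), (m (l + 1) - m l) *
        (q l - spR K m (fun l => b ^ 2 * q l) l) ^ 2 :=
      mul_nonneg (by positivity) (Finset.sum_nonneg fun l hl =>
        mul_nonneg (wt_nonneg hm hl) (sq_nonneg _))
    linarith
  · obtain ⟨C, hC, hup⟩ := vx_up hb
    refine le_of_forall_pos_le_add fun e he => ?_
    obtain ⟨x, hx⟩ : ∃ x, x = min 1 (e / C) := ⟨_, rfl⟩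
    have hx0 : 0 < x := by rw [hx]; positivity
    have hx1 : x ≤ 1 := by rw [hx]; exact min_le_left _ _
    have hx2 : x ≤ e / C := by rw [hx]; exact min_le_right _ _
    have h1 := hup x hx0 hx1
    have h2 : c ≤ Vx b x := by
      unfold Vx
      refine le_csInf ?_ ?_
      · refine ⟨_, 0, fun l => if l = 0 then 0 else 1, fun _ => 0, ⟨if_pos rfl, ?_, ?_⟩,
          ⟨le_rfl, fun _ _ => le_rfl⟩, rfl, zero_le_one, ?_, rfl⟩
        · simp
        · intro l hl
          have : l = 0 := by omega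
          subst this
          simp
        · simpa using hx1
      · rintro y ⟨K, m, q, hm, hq, hq0, hq1, -, rfl⟩
        exact hc ⟨K, m, q, hm, hq, hq0, hq1, rfl⟩
    have h3 : C * x ^ 5 ≤ e := by
      have h4 : x ^ 5 ≤ x ^ 1 := pow_le_pow_of_le_one hx0.le hx1 (by norm_num)
      rw [pow_one] at h4
      have h5 : C * x ≤ e := by
        have := mul_le_mul_of_nonneg_left hx2 (by linarith : (0 : ℝ) ≤ C)
        rwa [mul_div_cancel₀ _ (by linarith : C ≠ 0)] at this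
      have h6 : C * x ^ 5 ≤ C * x := mul_le_mul_of_nonneg_left h4 (by linarith)
      linarith
    linarith

/-- distance of the profiles of two paths with the same exponents -/
lemma lam_dist {K : ℕ} {m q s : ℕ → ℝ} (hm : Exponents K m) (y : ℝ) {a : ℝ} (ha : 0 < a) :
    |lam K m q y - lam K m s y| ≤
      a + (∑ l ∈ Finset.range (K + 1), (m (l + 1) - m l) * (q l - s l) ^ 2) / (4 * a) := by
  have e : lam K m q y - lam K m s y = ∑ l ∈ Finset.range (K + 1), (m (l + 1) - m l) *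
      (max (s l - y) 0 - max (q l - y) 0) := by
    unfold lam
    simp_rw [mul_sub]
    rw [Finset.sum_sub_distrib]
    ring
  rw [e]
  refine (Finset.abs_sum_le_sum_abs _ _).trans ?_
  have h1 : ∀ l ∈ Finset.range (K + 1), |(m (l + 1) - m l) *
      (max (s l - y) 0 - max (q l - y) 0)| ≤ (m (l + 1) - m l) * a +
        (m (l + 1) - m l) * (q l - s l) ^ 2 / (4 * a) := by
    intro l hl
    have hw := wt_nonneg hm hl
    have h2 : |max (s l - y) 0 - max (q l - y) 0| ≤ |q l - s l| := by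
      refine (abs_max_sub_max_le_max _ _ _ _).trans ?_
      rw [sub_self, abs_zero, max_eq_left (abs_nonneg _), abs_sub_comm]
      have e3 : q l - y - (s l - y) = q l - s l := by ring
      rw [e3]
    have h3 : |q l - s l| ≤ a + (q l - s l) ^ 2 / (4 * a) := by
      have h4 : 0 ≤ (|q l - s l| - 2 * a) ^ 2 := sq_nonneg _
      have h5 : (|q l - s l| - 2 * a) ^ 2 = (q l - s l) ^ 2 - 4 * a * |q l - s l| +
          4 * a ^ 2 := by
        rw [sub_sq, sq_abs]
        ring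
      rw [h5] at h4
      have h6 : |q l - s l| ≤ (4 * a ^ 2 + (q l - s l) ^ 2) / (4 * a) := by
        rw [le_div_iff₀ (by positivity)]
        linarith
      have e4 : (4 * a ^ 2 + (q l - s l) ^ 2) / (4 * a) = a + (q l - s l) ^ 2 / (4 * a) := by
        field_simp
      rwa [e4] at h6
    rw [abs_mul, abs_of_nonneg hw]
    have h7 := mul_le_mul_of_nonneg_left (h2.trans h3) hw
    have e5 : (m (l + 1) - m l) * (a + (q l - s l) ^ 2 / (4 * a)) = (m (l + 1) - m l) * a +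
        (m (l + 1) - m l) * (q l - s l) ^ 2 / (4 * a) := by ring
    rwa [e5] at h7
  refine (Finset.sum_le_sum h1).trans ?_
  rw [Finset.sum_add_distrib, ← Finset.sum_mul, wt_sum hm, one_mul, Finset.sum_div]

/-- **Near minimisers of the Parisi functional**, with the cap. -/
theorem par_near_cap (hb : 1 < b) {x : ℝ → ℝ} (hx : MinProf b x) {ε : ℝ} (hε : 0 < ε) :
    ∃ δ > 0, ∀ (K : ℕ) (m q : ℕ → ℝ), Exponents K m → Path K q → q 0 = 0 → q K ≤ 1 →
      SKpar b K m q ≤ P0 b + δ → ∀ y ∈ Icc (0 : ℝ) 1, |ll b (xs K m q) y - ll b x y| ≤ ε := by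
  have hb0 : 0 < b := by linarith
  have hglb : IsGLB (PV 1 (muS b 0 0)) (P0 b) := H501.glb_sk hb.le
  obtain ⟨δ₁, hδ₁, h1⟩ := near_min hb0 (hypR hb0) (hypI b) (hypF b) hx (half_pos hε)
  -- `a = ε / (4 b)`, `δ = min δ₁ (b² a²)`
  obtain ⟨a, ha⟩ : ∃ a, a = ε / (4 * b) := ⟨_, rfl⟩
  have ha0 : 0 < a := by rw [ha]; positivity
  refine ⟨min δ₁ (b ^ 2 * a ^ 2), by positivity, fun K m q hm hq hq0 hq1 hval y hy => ?_⟩
  obtain ⟨v, hv, hv2⟩ := dual_val hb0 hm hq hq0
  have hD := stat_dist hb0 hglb hm hq hq0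
  obtain ⟨s, hs⟩ : ∃ s : ℕ → ℝ, s = spR K m fun l => b ^ 2 * q l := ⟨_, rfl⟩
  have hsl : ∀ l, spR K m (fun l => b ^ 2 * q l) l = s l := fun l => by rw [hs]
  rw [← hs] at hv
  simp only [hsl] at hv2 hD
  obtain ⟨D, hDd⟩ : ∃ D, D = ∑ l ∈ Finset.range (K + 1), (m (l + 1) - m l) *
      (q l - s l) ^ 2 := ⟨_, rfl⟩
  have hD0 : 0 ≤ D := by
    rw [hDd]
    exact Finset.sum_nonneg fun l hl => mul_nonneg (wt_nonneg hm hl) (sq_nonneg _)
  rw [← hDd] at hv2 hD
  have hd1 : SKpar b K m q ≤ P0 b + δ₁ := hval.trans (by linarith [min_le_left δ₁ (b ^ 2 * a ^ 2)])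
  have hd2 : SKpar b K m q ≤ P0 b + b ^ 2 * a ^ 2 :=
    hval.trans (by linarith [min_le_right δ₁ (b ^ 2 * a ^ 2)])
  have hDle : D ≤ 4 * a ^ 2 := by
    have h2 : b ^ 2 / 4 * D ≤ b ^ 2 / 4 * (4 * a ^ 2) := by linarith
    exact le_of_mul_le_mul_left h2 (by positivity)
  have h3 := h1 K m s v hv (fun w hw => by
    have h4 := hglb.1 hw
    have h5 : 0 ≤ b ^ 2 / 4 * D := mul_nonneg (by positivity) hD0
    linarith) y hy
  have h6 := lam_dist (q := q) (s := s) hm y ha0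
  rw [← hDd] at h6
  have h7 : D / (4 * a) ≤ a := by
    rw [div_le_iff₀ (by positivity)]
    nlinarith
  have h8 : |ll b (xs K m q) y - ll b (xs K m s) y| ≤ b * (2 * a) := by
    rw [ll_xs hm hq hq1 hy.2, ll_xs hm hv.2.1 hv.2.2.2.1.le hy.2]
    refine (abs_min_sub_min_le_max _ _ _ _).trans ?_
    rw [sub_self, abs_zero, max_eq_left (abs_nonneg _), ← mul_sub, abs_mul, abs_of_pos hb0]
    exact mul_le_mul_of_nonneg_left (by linarith) hb0.le
  have h9 : b * (2 * a) = ε / 2 := by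
    rw [ha]
    field_simp
    ring
  rw [h9] at h8
  calc |ll b (xs K m q) y - ll b x y| ≤ |ll b (xs K m q) y - ll b (xs K m s) y| +
        |ll b (xs K m s) y - ll b x y| := abs_sub_le _ _ _
    _ ≤ ε := by linarith

end Vale.Agent.P146.R3.P316
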