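import Vale.Agent.P146.R3.H316.Par

/-!
# P146: the limit profile is the Parisi order parameter, `β ∫₀¹ x = 1`
-/

open MeasureTheory Filter Topology Set

namespace Vale.Agent.P146.R3.P316

open Vale.Agent Vale.Agent.P146.R3 Vale.Agent.P146.R3.H952 Vale.Agent.P157.Par
open Vale.Agent.P146.Gap Vale.Agent.P146.Sh

/-- a function with a quadratic contact is below its maximum -/
lemma contact_lt {l : ℝ → ℝ} (hanti : AntitoneOn l (Icc 0 1)) {k C y₀ : ℝ} (hk : 0 < k)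
    (hy₀ : 0 < y₀) (h : ∀ y, 0 ≤ y → y ≤ y₀ → |1 - l y - k * y ^ 2| ≤ C * y ^ (5 / 2 : ℝ)) :
    l 0 = 1 ∧ ∀ y ∈ Ioc (0 : ℝ) 1, l y < 1 := by
  constructor
  · have h0 := h 0 le_rfl hy₀.le
    rw [Real.zero_rpow (by norm_num)] at h0
    simp only [mul_zero, ne_eq, OfNat.ofNat_ne_zero, not_false_eq_true, zero_pow, sub_zero] at h0
    have := abs_nonpos_iff.1 h0
    linarith
  · intro y hy
    obtain ⟨z, hz⟩ : ∃ z : ℝ, z = min y (min y₀ ((k / (2 * (|C| + 1))) ^ 2)) := ⟨_, rfl⟩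
    have hz0 : 0 < z := by
      rw [hz]
      have := hy.1
      positivity
    have hz1 : z ≤ y := by rw [hz]; exact min_le_left _ _
    have hz2 : z ≤ y₀ := by rw [hz]; exact (min_le_right _ _).trans (min_le_left _ _)
    have hz3 : z ≤ (k / (2 * (|C| + 1))) ^ 2 := by
      rw [hz]; exact (min_le_right _ _).trans (min_le_right _ _)
    have h1 := (abs_le.1 (h z hz0.le hz2)).1
    have hsq : z ^ (5 / 2 : ℝ) = z ^ 2 * √z := by
      rw [Real.sqrt_eq_rpow, ← Real.rpow_natCast, ← Real.rpow_add hz0]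
      norm_num
    rw [hsq] at h1
    have h2 : √z ≤ k / (2 * (|C| + 1)) := by
      rw [Real.sqrt_le_left (by positivity)]
      exact hz3
    have h3 : (|C| + 1) * √z ≤ k / 2 := by
      have := mul_le_mul_of_nonneg_left h2 (show 0 ≤ |C| + 1 by positivity)
      have e : (|C| + 1) * (k / (2 * (|C| + 1))) = k / 2 := by
        have : (|C| + 1) ≠ 0 := by positivity
        field_simp
      rwa [e] at this
    have h4 : C * √z ≤ k / 2 := by
      refine le_trans (mul_le_mul_of_nonneg_right ?_ (Real.sqrt_nonneg _)) h3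
      linarith [le_abs_self C]
    have h5 : C * (z ^ 2 * √z) ≤ k / 2 * z ^ 2 := by
      have := mul_le_mul_of_nonneg_right h4 (sq_nonneg z)
      linarith
    have h6 : 0 < k / 2 * z ^ 2 := by positivity
    have h7 : l y ≤ l z := hanti ⟨hz0.le, hz1.trans hy.2⟩ ⟨hy.1.le, hy.2⟩ hz1
    linarith

variable {b : ℝ}

/-- **`β ∫₀¹ x = 1`**, and the cap is not active. -/
theorem int_eq_one (hb : 1 < b) {x : ℝ → ℝ} (hx : MinProf b x) :
    b * ∫ u in (0 : ℝ)..1, x u = 1 ∧ (∀ y ∈ Icc (0 : ℝ) 1, ll b x y = b * ∫ u in y..1, x u) ∧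
      ∀ y ∈ Ioc (0 : ℝ) 1, b * ∫ u in y..1, x u < 1 := by
  have hb0 : 0 < b := by linarith
  obtain ⟨L, -, h⟩ := uni
  obtain ⟨hL, p, -, -, -, hu⟩ := h b hb
  obtain ⟨⟨C, y₀, hy₀, h1⟩, -, -⟩ := hu x hx
  have hk : 0 < (9 * b ^ 6 / (80 * L b)) ^ (1 / 3 : ℝ) / 4 := by positivity
  obtain ⟨h2, h3⟩ := contact_lt (ll_anti hb0 hx.1 hx.2.1) hk hy₀ h1
  have hp := prof_prim hx.1 hx.2.1
  have hlt : ∀ y ∈ Ioc (0 : ℝ) 1, b * ∫ u in y..1, x u < 1 := by
    intro y hy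
    have h4 := h3 y hy
    unfold ll at h4
    rcases min_lt_iff.1 h4 with h5 | h5
    · exact h5
    · exact absurd h5 (lt_irrefl _)
  have hge : 1 ≤ b * ∫ u in (0 : ℝ)..1, x u := by
    unfold ll at h2
    have h4 : min (b * ∫ u in (0 : ℝ)..1, x u) 1 ≤ b * ∫ u in (0 : ℝ)..1, x u := min_le_left _ _
    rwa [h2] at h4
  have hle : b * ∫ u in (0 : ℝ)..1, x u ≤ 1 := by
    refine le_of_forall_pos_le_add fun e he => ?_
    obtain ⟨y, hy⟩ : ∃ y, y = min 1 (e / b) := ⟨_, rfl⟩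
    have hy0 : 0 < y := by rw [hy]; positivity
    have hy1 : y ≤ 1 := by rw [hy]; exact min_le_left _ _
    have hy2 : y ≤ e / b := by rw [hy]; exact min_le_right _ _
    have h4 := hp.lip 0 ⟨le_rfl, zero_le_one⟩ y ⟨hy0.le, hy1⟩ hy0.le
    unfold prim at h4
    have h5 := hlt y ⟨hy0, hy1⟩
    have h6 := mul_le_mul_of_nonneg_left h4 hb0.le
    have h7 : b * y ≤ e := by
      have := mul_le_mul_of_nonneg_left hy2 hb0.le
      rwa [mul_div_cancel₀ _ hb0.ne'] at this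
    rw [mul_sub, sub_zero] at h6
    linarith
  have heq : b * ∫ u in (0 : ℝ)..1, x u = 1 := le_antisymm hle hge
  refine ⟨heq, fun y hy => ?_, hlt⟩
  unfold ll
  refine min_eq_left ?_
  rcases hy.1.eq_or_lt with h4 | h4
  · rw [← h4]
    exact hle
  · exact (hlt y ⟨h4, hy.2⟩).le

/-- **Near minimisers of the Parisi functional.** -/
theorem par_near (hb : 1 < b) {x : ℝ → ℝ} (hx : MinProf b x) {ε : ℝ} (hε : 0 < ε) :
    ∃ δ > 0, ∀ (K : ℕ) (m q : ℕ → ℝ), Exponents K m → Path K q → q 0 = 0 → q K ≤ 1 →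
      SKpar b K m q ≤ P0 b + δ → ∀ y ∈ Icc (0 : ℝ) 1,
        |(∫ u in y..1, xs K m q u) - ∫ u in y..1, x u| ≤ ε := by
  have hb0 : 0 < b := by linarith
  obtain ⟨-, hll, hlt⟩ := int_eq_one hb hx
  obtain ⟨z, hz⟩ : ∃ z, z = min 1 (ε / 4) := ⟨_, rfl⟩
  have hz0 : 0 < z := by rw [hz]; positivity
  have hz1 : z ≤ 1 := by rw [hz]; exact min_le_left _ _
  have hz2 : z ≤ ε / 4 := by rw [hz]; exact min_le_right _ _
  have h1 := hlt z ⟨hz0, hz1⟩
  obtain ⟨e, he⟩ : ∃ e, e = min (b * ε / 2) ((1 - b * ∫ u in z..1, x u) / 2) := ⟨_, rfl⟩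
  have he0 : 0 < e := by
    rw [he]
    have : 0 < 1 - b * ∫ u in z..1, x u := by linarith
    positivity
  have he1 : e ≤ b * ε / 2 := by rw [he]; exact min_le_left _ _
  have he2 : e ≤ (1 - b * ∫ u in z..1, x u) / 2 := by rw [he]; exact min_le_right _ _
  obtain ⟨δ, hδ, h2⟩ := par_near_cap hb hx he0
  refine ⟨δ, hδ, fun K m q hm hq hq0 hq1 hval y hy => ?_⟩
  have hP := prof_prim (xs_mono (q := q) hm) (xs_mem hm)
  have hzI : z ∈ Icc (0 : ℝ) 1 := ⟨hz0.le, hz1⟩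
  have h3 := h2 K m q hm hq hq0 hq1 hval z hzI
  have h4 := h2 K m q hm hq hq0 hq1 hval y hy
  rw [hll z hzI] at h3
  rw [hll y hy] at h4
  unfold ll at h3 h4
  have h5 : min (b * ∫ u in z..1, xs K m q u) 1 < 1 := by
    have := (abs_le.1 h3).2
    linarith
  have h6 : b * ∫ u in z..1, xs K m q u < 1 := by
    rcases min_lt_iff.1 h5 with h6 | h6
    · exact h6
    · exact absurd h6 (lt_irrefl _)
  have h7 := hP.lip 0 ⟨le_rfl, zero_le_one⟩ z hzI hz0.le
  have h8 := hP.anti 0 ⟨le_rfl, zero_le_one⟩ y hy hy.1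
  unfold prim at h7 h8
  obtain ⟨G, hG⟩ : ∃ G, G = ∫ u in y..1, xs K m q u := ⟨_, rfl⟩
  obtain ⟨X, hX⟩ : ∃ X, X = ∫ u in y..1, x u := ⟨_, rfl⟩
  rw [← hG, ← hX] at h4 ⊢
  rw [← hG] at h8
  have h9 : b * G ≤ 1 + b * (ε / 4) := by
    have h10 := mul_le_mul_of_nonneg_left h8 hb0.le
    have h11 := mul_le_mul_of_nonneg_left h7 hb0.le
    have h12 := mul_le_mul_of_nonneg_left hz2 hb0.le
    rw [mul_sub, sub_zero] at h11
    linarith
  have h13 : |b * G - min (b * G) 1| ≤ b * (ε / 4) := by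
    rcases le_total (b * G) 1 with h | h
    · rw [min_eq_left h, sub_self, abs_zero]
      positivity
    · rw [min_eq_right h, abs_of_nonneg (by linarith)]
      linarith
  have h14 : |b * G - b * X| ≤ b * ε := by
    calc |b * G - b * X| ≤ |b * G - min (b * G) 1| + |min (b * G) 1 - b * X| := abs_sub_le _ _ _
      _ ≤ b * (ε / 4) + b * ε / 2 := add_le_add h13 (h4.trans he1)
      _ ≤ b * ε := by nlinarith
  rw [← mul_sub, abs_mul, abs_of_pos hb0] at h14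
  exact le_of_mul_le_mul_left h14 hb0

end Vale.Agent.P146.R3.P316
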