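import Vale.Agent.P146.R3.H597.Exact
import Vale.Agent.P146.R3.H729.Fin
import Vale.Agent.P146.R3.H536.NearB
import Vale.Agent.P146.R3.H316.Rel

/-!
# P146: the universal relation between the chaos function and the large deviations

The growth of the limiting chaos function near `t = 1` is governed by the constant `L(β)` of the
exponential moments of the free energy.
-/

open MeasureTheory ProbabilityTheory Filter Topology

namespace Vale.Agent.P146.R3.P316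

open Vale.Agent.P146 Vale.Agent.P146.R3 Vale.Agent.P146.R3.H952

lemma cbrt_eq {b A : ℝ} (hb : 0 < b) (hA : 0 < A) :
    (80 * A / 9) ^ (1 / 3 : ℝ) = b ^ 2 / H729.kap2 b A := by
  have e2 : 80 * A / 9 = (b ^ 2) ^ 3 / (9 / 80 * b ^ 6 / A) := by
    field_simp
  have e3 : ((b ^ 2) ^ 3) ^ (1 / 3 : ℝ) = b ^ 2 := by
    rw [← Real.rpow_natCast (b ^ 2) 3, ← Real.rpow_mul (by positivity)]
    norm_num
  rw [e2, Real.div_rpow (by positivity) (by positivity), e3]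
  rfl

/-- **The universal relation.** -/
theorem uni : ∃ L : ℝ → ℝ, Tendsto L (𝓝[>] 1) (𝓝 (9 / 5120)) ∧ ∀ β : ℝ, 1 < β → 0 < L β ∧
    ∃ p : ℝ,
      Tendsto (fun n : ℕ => (∫ g, freeEnergy n β g ∂(disorder n)) / n) atTop (𝓝 p) ∧
      IsGLB (PV 1 (muS β 0 0)) (p - Real.log 2) ∧
      (∀ ε : ℝ, 0 < ε → ∃ δ : ℝ, 0 < δ ∧ ∀ᶠ n : ℕ in atTop,
        ∀ s : ℝ, (n : ℝ) ^ (-(1 / 36) : ℝ) ≤ s → s ≤ δ →
          |Real.log (∫ g, Real.exp (s * (freeEnergy n β g - n * p)) ∂(disorder n)) -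
            L β * n * s ^ 6| ≤ ε * n * s ^ 6) ∧
      ∀ x : ℝ → ℝ, MinProf β x →
        (∃ C y₀ : ℝ, 0 < y₀ ∧ ∀ y, 0 ≤ y → y ≤ y₀ →
          |1 - ll β x y - (9 * β ^ 6 / (80 * L β)) ^ (1 / 3 : ℝ) / 4 * y ^ 2| ≤
            C * y ^ (5 / 2 : ℝ)) ∧
        Tendsto (fun k : ℕ => mk β x k ^ 2 / ((k : ℝ) + 1)) atTop
          (𝓝 (Real.pi / β ^ 2 * (80 * L β / 9) ^ (1 / 3 : ℝ))) ∧
        Tendsto (fun t : ℝ => (1 - t) * Kinf β x t) (𝓝[<] 1)
          (𝓝 (Real.pi / 2 * (80 * L β / 9) ^ (1 / 3 : ℝ))) := by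
  obtain ⟨Λ, hΛ, h⟩ := H316.lam_rel
  refine ⟨Λ, hΛ, fun β hβ => ?_⟩
  have hβ0 : 0 < β := by linarith
  obtain ⟨hΛ0, hlimΛ, p, hp, hmom⟩ := h β hβ
  obtain ⟨C, a, A, c, x₀, ha, hA, hc, hx₀, hx₀1, hlim, hall, -⟩ :=
    Ld.two_sided hβ (Lb.l1 hβ)
  have hpv : p = Real.log 2 + Sh.P0 β := tendsto_nhds_unique hp hlim
  have hglb : IsGLB (PV 1 (muS β 0 0)) (Sh.P0 β) := H501.glb_sk hβ.le
  refine ⟨hΛ0, p, hp, ?_, hmom, fun x hx => ?_⟩
  · rw [hpv, add_sub_cancel_left]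
    exact hglb
  · obtain ⟨⟨C', y₀, hy₀, h1⟩, h2, h3⟩ := H729.growth hβ hΛ0
      (fun k m q hm hq hq1 => H536.specPart_le hβ0 hm hq hq1)
      (fun e he => H793.sel hβ hlimΛ e he) (hypR hβ0) (hypI β) (hypF β) hglb hx
    refine ⟨⟨C', y₀, hy₀, fun y hy hy1 => ?_⟩, ?_, ?_⟩
    · have e : (9 * β ^ 6 / (80 * Λ β)) ^ (1 / 3 : ℝ) = H729.kap2 β (Λ β) := by
        unfold H729.kap2
        congr 1
        have := hΛ0.ne'
        field_simp
      rw [e]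
      exact h1 y hy hy1
    · rw [cbrt_eq hβ0 hΛ0]
      have e : Real.pi / β ^ 2 * (β ^ 2 / H729.kap2 β (Λ β)) = Real.pi / H729.kap2 β (Λ β) := by
        have := hβ0.ne'
        field_simp
      rw [e]
      exact h2
    · have e : ∀ t : ℝ, (1 - t) * Kinf β x t = (1 - t) * (β ^ 2 / 2 * ∑' k : ℕ, t ^ (k + 2) *
          ((((k + 1 : ℕ) : ℝ) + 1) * ∫ y in (0 : ℝ)..1, ll β x y ^ (k + 1)) ^ 2 /
            (((k + 1 : ℕ) : ℝ) + 1)) := by
        intro t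
        unfold Kinf mk
        congr 2
        refine tsum_congr fun k => ?_
        have e1 : (((k + 1 : ℕ) : ℝ) + 1) = (k : ℝ) + 2 := by
          push_cast
          ring
        rw [e1]
        ring
      simp_rw [e]
      exact h3

end Vale.Agent.P146.R3.P316
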